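import Vale.Agent.P127.Regular.Slices

namespace Vale.Agent.Results.P127.HolderSelection

open MeasureTheory Set Filter Topology Vale.Agent.P127.Regular

/-- A set containing unit segments that depend Hölder continuously, with exponent above
`(n - 2) / (n - 1)`, on an open set of directions has positive measure and full dimension. -/
theorem result : ∀ (n : ℕ), 2 ≤ n → ∀ (α : ℝ), ((n : ℝ) - 2) / ((n : ℝ) - 1) < α → 0 < α → α ≤ 1 →
    ∀ (K U : Set (EuclideanSpace ℝ (Fin n))), IsOpen U →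
    (U ∩ Metric.sphere 0 1).Nonempty →
    ∀ (a : EuclideanSpace ℝ (Fin n) → EuclideanSpace ℝ (Fin n)) (C : ℝ),
      (∀ e ∈ U ∩ Metric.sphere 0 1, ∀ e' ∈ U ∩ Metric.sphere 0 1,
        ‖a e - a e'‖ ≤ C * ‖e - e'‖ ^ α) →
      (∀ e ∈ U ∩ Metric.sphere 0 1, ∀ t ∈ Icc (0 : ℝ) 1, a e + t • e ∈ K) →
      volume K ≠ 0 ∧ dimH K = (n : ENNReal) := by
  intro n hn α hαn hα hα1 K U hU hne a C hhol hseg
  classical
  obtain ⟨m, rfl⟩ : ∃ m, n = m + 1 := ⟨n - 1, by omega⟩
  have hm : 1 ≤ m := by omega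
  have hγ : ((m : ℝ) - 1) < α * m := by
    have hm0 : (0 : ℝ) < m := by exact_mod_cast hm
    push_cast at hαn
    rw [div_lt_iff₀ (by linarith)] at hαn
    linarith
  suffices hvol : volume K ≠ 0 by
    refine ⟨hvol, le_antisymm ((dimH_mono (subset_univ K)).trans_eq ?_) ?_⟩
    · rw [Real.dimH_univ_eq_finrank, finrank_euclideanSpace_fin]
    · have hne' : Measure.hausdorffMeasure ((m + 1 : ℕ) : ℝ) K ≠ 0 := by
        intro h0
        have h1 : (Measure.hausdorffMeasure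
            (Module.finrank ℝ (EuclideanSpace ℝ (Fin (m + 1))) : ℝ) :
              Measure (EuclideanSpace ℝ (Fin (m + 1)))) K = 0 := by
          rw [finrank_euclideanSpace_fin]; exact h0
        exact hvol (Measure.absolutelyContinuous_isAddHaarMeasure volume _ h1)
      exact_mod_cast le_dimH_of_hausdorffMeasure_ne_zero (d := (m + 1 : ℕ)) hne'
  obtain ⟨e₀, he₀U, he₀S⟩ := hne
  have hnorm : ‖e₀‖ = 1 := mem_sphere_zero_iff_norm.1 he₀S
  obtain ⟨i, hi⟩ : ∃ i, e₀ i ≠ 0 := by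
    by_contra! h
    have : e₀ = 0 := PiLp.ext fun j => h j
    simp [this] at hnorm
  -- linear coordinates adapted to the direction
  set L : (ℝ × (Fin m → ℝ)) →ₗ[ℝ] EuclideanSpace ℝ (Fin (m + 1)) :=
    { toFun := fun p => p.1 • e₀ + WithLp.toLp 2 (Fin.insertNth i (0 : ℝ) p.2)
      map_add' := fun p q => by
        ext j
        refine Fin.succAboveCases i ?_ (fun k => ?_) j <;> simp <;> ring
      map_smul' := fun c p => by
        ext j
        refine Fin.succAboveCases i ?_ (fun k => ?_) j <;> simp <;> ring } with hLdef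
  have hLinj : Function.Injective L := by
    refine (injective_iff_map_eq_zero L).2 fun p hp => ?_
    have h1 : (L p) i = 0 := by rw [hp]; rfl
    have hs : p.1 = 0 := by simpa [hLdef, hi] using h1
    refine Prod.ext hs (funext fun k => ?_)
    have h2 : (L p) (i.succAbove k) = 0 := by rw [hp]; rfl
    simpa [hLdef, hs] using h2
  set Ψ : (ℝ × (Fin m → ℝ)) ≃L[ℝ] EuclideanSpace ℝ (Fin (m + 1)) :=
    (L.linearEquivOfInjective hLinj (by simp [add_comm])).toContinuousLinearEquiv with hΨ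
  have hΨ0 : Ψ (1, 0) = e₀ := by
    show L (1, 0) = e₀
    ext j
    refine Fin.succAboveCases i ?_ (fun k => ?_) j <;> simp [hLdef]
  set w : (Fin m → ℝ) → EuclideanSpace ℝ (Fin (m + 1)) := fun v => Ψ (1, v) with hw
  set e : (Fin m → ℝ) → EuclideanSpace ℝ (Fin (m + 1)) := fun v => ‖w v‖⁻¹ • w v with he
  have hw0 : ∀ v, w v ≠ 0 := fun v h => by
    have := Ψ.map_eq_zero_iff.1 h
    simp at this
  have hwc : ContDiff ℝ 1 w := Ψ.contDiff.comp (contDiff_prodMk_right _)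
  have heC : ContDiff ℝ 1 e := ((hwc.norm ℝ hw0).inv fun v => norm_ne_zero_iff.2 (hw0 v)).smul hwc
  have hes : ∀ v, e v ∈ Metric.sphere (0 : EuclideanSpace ℝ (Fin (m + 1))) 1 := fun v => by
    rw [mem_sphere_zero_iff_norm, he, norm_smul, norm_inv, norm_norm,
      inv_mul_cancel₀ (norm_ne_zero_iff.2 (hw0 v))]
  have he0 : e 0 = e₀ := by simp [he, hw, hΨ0, hnorm]
  obtain ⟨Ke, s, hs, hlip⟩ := heC.contDiffAt.exists_lipschitzOnWith (x := (0 : Fin m → ℝ))
  set κ : ℝ := ‖(Ψ.symm : EuclideanSpace ℝ (Fin (m + 1)) →L[ℝ] ℝ × (Fin m → ℝ))‖ with hκ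
  set C₁ : ℝ := κ * (|C| * (Ke : ℝ) ^ α) with hC₁
  have hC₁0 : 0 ≤ C₁ := by positivity
  set c₀ : ℝ := (Ψ.symm (a e₀)).1 with hc₀
  obtain ⟨ρ, hρ, hρs⟩ := Metric.mem_nhds_iff.1 (Filter.inter_mem hs
    (Filter.inter_mem (heC.continuous.continuousAt.preimage_mem_nhds
      (by rw [he0]; exact hU.mem_nhds he₀U))
      ((hwc.continuous.norm).continuousAt.preimage_mem_nhds
        (Iio_mem_nhds (show ‖w 0‖ < 4 / 3 by simp [hw, hΨ0, hnorm]; norm_num)))))
  set δ : ℝ := (1 / (4 * (C₁ + 1))) ^ (1 / α) with hδ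
  have hδ0 : 0 < δ := by positivity
  set r : ℝ := min (min (ρ / 2) (1 / 2)) δ with hr
  have hr0 : 0 < r := lt_min (lt_min (by linarith) (by norm_num)) hδ0
  have hball : ∀ v, ‖v‖ ≤ r → v ∈ s ∧ e v ∈ U ∩ Metric.sphere 0 1 ∧ ‖w v‖ < 4 / 3 := fun v hv => by
    have h := hρs (mem_ball_zero_iff.2 (lt_of_le_of_lt
      (hv.trans ((min_le_left _ _).trans (min_le_left _ _))) (by linarith)))
    exact ⟨h.1, ⟨h.2.1, hes v⟩, h.2.2⟩
  have hA : ∀ x y, ‖x‖ ≤ r → ‖y‖ ≤ r →
      ‖Ψ.symm (a (e x)) - Ψ.symm (a (e y))‖ ≤ C₁ * ‖x - y‖ ^ α := by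
    intro x y hx hy
    obtain ⟨hxs, hxe, -⟩ := hball x hx
    obtain ⟨hys, hye, -⟩ := hball y hy
    rw [← map_sub, hC₁, mul_assoc, mul_assoc]
    refine ((Ψ.symm : EuclideanSpace ℝ (Fin (m + 1)) →L[ℝ] ℝ × (Fin m → ℝ)).le_opNorm _).trans
      (mul_le_mul_of_nonneg_left ?_ (norm_nonneg _))
    refine (hhol _ hxe _ hye).trans ?_
    rw [← Real.mul_rpow Ke.coe_nonneg (norm_nonneg _)]
    exact mul_le_mul (le_abs_self C)
      (Real.rpow_le_rpow (norm_nonneg _) (hlip.norm_sub_le hxs hys) hα.le)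
      (Real.rpow_nonneg (norm_nonneg _) _) (abs_nonneg _)
  set c : (Fin m → ℝ) → ℝ := fun v => (Ψ.symm (a (e v))).1 with hc
  have hcb : ∀ v, ‖v‖ ≤ r → |c v - c₀| ≤ 1 / 4 := by
    intro v hv
    have h := (norm_fst_le _).trans (hA v 0 hv (by simpa using hr0.le))
    rw [sub_zero, Prod.fst_sub, Real.norm_eq_abs, he0] at h
    refine h.trans ?_
    calc C₁ * ‖v‖ ^ α ≤ (C₁ + 1) * δ ^ α :=
          mul_le_mul (by linarith) (Real.rpow_le_rpow (norm_nonneg _) (hv.trans (min_le_right _ _))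
            hα.le) (Real.rpow_nonneg (norm_nonneg _) _) (by linarith)
      _ = 1 / 4 := by
          rw [hδ, ← Real.rpow_mul (by positivity), one_div_mul_cancel hα.ne', Real.rpow_one]
          field_simp
  set β : (Fin m → ℝ) → Fin m → ℝ := fun v => (Ψ.symm (a (e v))).2 - c v • v with hβ
  have hβh : ∀ x y, ‖x‖ ≤ r → ‖y‖ ≤ r →
      ‖β x - β y‖ ≤ (2 * C₁ + (|c₀| + 1)) * ‖x - y‖ ^ α := by
    intro x y hx hy
    have h1 := hA x y hx hy
    have hsplit : β x - β y = (Ψ.symm (a (e x)) - Ψ.symm (a (e y))).2 -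
        ((c x - c y) • x + c y • (x - y)) := by
      simp only [hβ, Prod.snd_sub]; module
    have hr1 : r ≤ 1 / 2 := (min_le_left _ _).trans (min_le_right _ _)
    have hd : ‖x - y‖ ≤ ‖x - y‖ ^ α := Real.self_le_rpow_of_le_one (norm_nonneg _)
      ((norm_sub_le _ _).trans (by linarith)) hα1
    have h2 : ‖(c x - c y) • x‖ ≤ C₁ * ‖x - y‖ ^ α := by
      rw [norm_smul]
      refine (mul_le_of_le_one_right (norm_nonneg _) (by linarith)).trans ?_
      exact (norm_fst_le _).trans h1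
    have h3 : ‖c y • (x - y)‖ ≤ (|c₀| + 1) * ‖x - y‖ ^ α := by
      rw [norm_smul, Real.norm_eq_abs]
      refine mul_le_mul ?_ hd (norm_nonneg _) (by positivity)
      have := abs_sub_abs_le_abs_sub (c y) c₀
      linarith [hcb y hy]
    rw [hsplit]
    refine (norm_sub_le _ _).trans ?_
    have h4 := (norm_snd_le _).trans h1
    have h5 := norm_add_le ((c x - c y) • x) (c y • (x - y))
    linarith
  have hG := lines_ne_null hm hr0 (by positivity) hα hα1 hγ hβh
    (show c₀ + 1 / 3 < c₀ + 1 / 2 by linarith)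
  intro hK
  refine hG (measure_mono_null ?_ (?_ : volume (Ψ ⁻¹' K) = 0))
  · rintro _ ⟨⟨τ, v⟩, ⟨hτ, hv⟩, rfl⟩
    rw [mem_closedBall_zero_iff] at hv
    obtain ⟨-, hve, hwv⟩ := hball v hv
    have hcv := abs_le.1 (hcb v hv)
    have hτc : 0 ≤ τ - c v := by linarith [hτ.1]
    show Ψ (τ, β v + τ • v) ∈ K
    have key : Ψ (τ, β v + τ • v) = a (e v) + ((τ - c v) * ‖w v‖) • e v := by
      have h2 : ((τ - c v) * ‖w v‖) • e v = Ψ ((τ - c v) • ((1 : ℝ), v)) := by
        rw [he, smul_smul, mul_assoc, mul_inv_cancel₀ (norm_ne_zero_iff.2 (hw0 v)), mul_one,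
          map_smul]
      conv_rhs => rw [h2, ← Ψ.apply_symm_apply (a (e v)), ← map_add]
      congr 1
      refine Prod.ext ?_ ?_
      · simp [hc]
      · simp only [hβ, hc, Prod.snd_add, Prod.smul_snd]; module
    rw [key]
    refine hseg _ hve _ ⟨mul_nonneg hτc (norm_nonneg _), ?_⟩
    calc (τ - c v) * ‖w v‖ ≤ (3 / 4) * (4 / 3) :=
          mul_le_mul (by linarith [hτ.2]) hwv.le (norm_nonneg _) (by norm_num)
      _ = 1 := by norm_num
  · have : (volume : Measure (ℝ × (Fin m → ℝ))).IsAddHaarMeasure := by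
      rw [Measure.volume_eq_prod]; infer_instance
    have : (Measure.map Ψ (volume : Measure (ℝ × (Fin m → ℝ)))).IsAddHaarMeasure :=
      Ψ.isAddHaarMeasure_map _
    have h1 : (Measure.map Ψ (volume : Measure (ℝ × (Fin m → ℝ)))) K = 0 :=
      Measure.absolutelyContinuous_isAddHaarMeasure _ volume hK
    have h2 : MeasurableEmbedding Ψ := Ψ.toHomeomorph.measurableEmbedding
    rwa [h2.map_apply] at h1

end Vale.Agent.Results.P127.HolderSelection
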